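import Vale.Agent.P017.R2.H985.Defs

/-!
# P017, module M7a: the sum of `1 / m` over the squarefree `m ≤ Y` prime to `30`
-/

open Finset

namespace Vale.Agent.P017.R2.H420

open Vale.Agent.P017.R2.H985

theorem sum_inv_sq_le (n : ℕ) : ∑ k ∈ Icc 1 n, 1 / ((k : ℝ) ^ 2) ≤ 2 := by
  suffices h : ∑ k ∈ Icc 1 n, 1 / ((k : ℝ) ^ 2) ≤ 2 - 1 / (n : ℝ) by
    have : (0 : ℝ) ≤ 1 / (n : ℝ) := by positivity
    linarith
  induction n with
  | zero => simp
  | succ n ih =>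
    rw [Finset.sum_Icc_succ_top (by omega)]
    rcases Nat.eq_zero_or_pos n with rfl | hn
    · simp
      norm_num
    · have hn' : (0 : ℝ) < n := by exact_mod_cast hn
      have key : 1 / (((n + 1 : ℕ) : ℝ) ^ 2) ≤ 1 / (n : ℝ) - 1 / ((n + 1 : ℕ) : ℝ) := by
        push_cast
        rw [div_sub_div _ _ hn'.ne' (by positivity), div_le_div_iff₀ (by positivity) (by positivity)]
        nlinarith
      linarith

theorem sum_div_thirty : ∑ e ∈ Nat.divisors 30, 1 / (e : ℝ) = 12 / 5 := by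
  have h : Nat.divisors 30 = {1, 2, 3, 5, 6, 10, 15, 30} := by decide
  rw [h]
  norm_num

/-- `n = k ^ 2 e m`, `e ∣ 30`, `m` squarefree and prime to `30`. -/
theorem decomp (n : ℕ) : ∃ x : ℕ × ℕ × ℕ, x.1 ^ 2 * (x.2.1 * x.2.2) = n ∧ x.2.1 ∣ 30 ∧
    Squarefree x.2.2 ∧ x.2.2.Coprime 30 := by
  obtain ⟨u, k, hku, hu⟩ := Nat.sq_mul_squarefree n
  have h1 : Nat.gcd u 30 * (u / Nat.gcd u 30) = u := Nat.mul_div_cancel' (Nat.gcd_dvd_left _ _)
  have h2 : Squarefree (Nat.gcd u 30 * (u / Nat.gcd u 30)) := by rw [h1]; exact hu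
  have h3 := Nat.squarefree_mul_iff.1 h2
  refine ⟨(k, Nat.gcd u 30, u / Nat.gcd u 30), by rw [h1, hku], Nat.gcd_dvd_right _ _, h3.2.2, ?_⟩
  have h4 : Nat.gcd (u / Nat.gcd u 30) 30 ∣ Nat.gcd u 30 :=
    Nat.dvd_gcd ((Nat.gcd_dvd_left _ _).trans ⟨_, by rw [mul_comm]; exact h1.symm⟩)
      (Nat.gcd_dvd_right _ _)
  exact Nat.eq_one_of_dvd_coprimes h3.1 h4 (Nat.gcd_dvd_left _ _)

theorem stmtSqf : StmtSqf := by
  refine ⟨5 / 24, by norm_num, fun Y hY => ?_⟩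
  choose g hg using decomp
  set S := (Icc 1 Y).filter (fun m => Squarefree m ∧ m.Coprime 30) with hS
  let F : ℕ × ℕ × ℕ → ℝ := fun x => 1 / ((x.1 : ℝ) ^ 2) * (1 / (x.2.1 : ℝ) * (1 / (x.2.2 : ℝ)))
  have hF : ∀ n, F (g n) = 1 / (n : ℝ) := by
    intro n
    have h : (n : ℝ) = ((g n).1 : ℝ) ^ 2 * ((g n).2.1 * (g n).2.2) := by
      exact_mod_cast (hg n).1.symm
    rw [h]
    simp only [F, one_div, mul_inv]
  have hinj : Function.Injective g := fun a b hab => by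
    rw [← (hg a).1, ← (hg b).1, hab]
  have h1 : ∑ n ∈ Icc 1 Y, 1 / (n : ℝ) = ∑ x ∈ (Icc 1 Y).image g, F x := by
    rw [Finset.sum_image fun a _ b _ h => hinj h]
    exact Finset.sum_congr rfl fun n _ => (hF n).symm
  have h2 : (Icc 1 Y).image g ⊆ Icc 1 Y ×ˢ (Nat.divisors 30 ×ˢ S) := by
    intro x hx
    obtain ⟨n, hn, rfl⟩ := Finset.mem_image.1 hx
    have hn' := Finset.mem_Icc.1 hn
    obtain ⟨e1, e2, e3, e4⟩ := hg n
    have p1 : 1 ≤ (g n).1 := by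
      rcases Nat.eq_zero_or_pos (g n).1 with h | h
      · rw [h] at e1; simp at e1; omega
      · exact h
    have p3 : 1 ≤ (g n).2.2 := Nat.pos_of_ne_zero e3.ne_zero
    have p2 : 1 ≤ (g n).2.1 := Nat.pos_of_dvd_of_pos e2 (by norm_num)
    have l1 : (g n).1 ≤ n := by
      calc (g n).1 ≤ (g n).1 ^ 2 * ((g n).2.1 * (g n).2.2) := by
            rw [pow_two, mul_assoc]
            exact Nat.le_mul_of_pos_right _ (by positivity)
        _ = n := e1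
    have l3 : (g n).2.2 ≤ n := by
      calc (g n).2.2 ≤ (g n).1 ^ 2 * ((g n).2.1 * (g n).2.2) := by
            rw [← mul_assoc]
            exact Nat.le_mul_of_pos_left _ (by positivity)
        _ = n := e1
    simp only [Finset.mem_product, Finset.mem_Icc, Nat.mem_divisors, hS, Finset.mem_filter]
    exact ⟨⟨p1, by omega⟩, ⟨e2, by norm_num⟩, ⟨p3, by omega⟩, e3, e4⟩
  have h3 : ∑ x ∈ (Icc 1 Y).image g, F x ≤ ∑ x ∈ Icc 1 Y ×ˢ (Nat.divisors 30 ×ˢ S), F x :=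
    Finset.sum_le_sum_of_subset_of_nonneg h2 fun x _ _ => by positivity
  have h4 : ∑ x ∈ Icc 1 Y ×ˢ (Nat.divisors 30 ×ˢ S), F x =
      (∑ k ∈ Icc 1 Y, 1 / ((k : ℝ) ^ 2)) * ((∑ e ∈ Nat.divisors 30, 1 / (e : ℝ)) *
        ∑ m ∈ S, 1 / (m : ℝ)) := by
    rw [Finset.sum_mul_sum, Finset.sum_mul_sum, Finset.sum_product]
    refine Finset.sum_congr rfl fun k _ => ?_
    rw [Finset.sum_product]
    refine Finset.sum_congr rfl fun e _ => ?_
    rw [Finset.mul_sum]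
  have h5 : Real.log Y ≤ ∑ n ∈ Icc 1 Y, 1 / (n : ℝ) := by
    have h := log_add_one_le_harmonic Y
    rw [harmonic_eq_sum_Icc] at h
    push_cast at h
    simp only [one_div]
    refine le_trans (Real.log_le_log ?_ ?_) h
    · exact_mod_cast (by omega : 0 < Y)
    · linarith
  have h6 : 0 ≤ ∑ m ∈ S, 1 / (m : ℝ) := Finset.sum_nonneg fun m _ => by positivity
  rw [sum_div_thirty] at h4
  have h7 := sum_inv_sq_le Y
  have h8 : Real.log Y ≤ 2 * (12 / 5 * ∑ m ∈ S, 1 / (m : ℝ)) := by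
    calc Real.log Y ≤ _ := h5
      _ = _ := h1
      _ ≤ _ := h3
      _ = _ := h4
      _ ≤ 2 * (12 / 5 * ∑ m ∈ S, 1 / (m : ℝ)) := by gcongr
  linarith

end Vale.Agent.P017.R2.H420
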