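import Vale.Agent.P017.R2.H420.Fin
import Vale.Agent.P017.R2.H420.Sqf
import Vale.Agent.P017.R2.H816.Red
import Vale.Agent.P017.R2.H916.Good
import Vale.Agent.P017.R2.H916.Id
import Vale.Agent.P017.R2.H285.Eq
import Vale.Agent.P017.R2.H217.Plug
import Vale.Agent.P017.R2.H985.First
import Vale.Agent.P017.R2.H160.M3
import Vale.Agent.P017.R2.H918.BL

/-!
# P017: the final statement without hypotheses
-/

namespace Vale.Agent.P017.R2.H420

open Vale.Agent.P017.R2.H985

theorem final : StmtFinal :=
  stmtFinal H816.stmtRed H916.stmtGood H916.stmtId H285.stmtEq H217.stmtCharSum H217.stmtMain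
    (stmtFirst H160.stmtEP H160.stmtLB H285.stmtPS1 H285.stmtPS2 H918.stmtBL) stmtSqf

end Vale.Agent.P017.R2.H420
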