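import Vale.Agent.P017.R2.H420.Cnt

/-!
# P017, module M7b: counting in a dyadic box, injectivity
-/

open Finset

namespace Vale.Agent.P017.R2.H420

open Vale.Agent.P017.R2.H985
open Vale.Agent.P017.H185 (Redei)

theorem exists_rho {r m : ℕ} (hr : r < 60) (hrc : r.Coprime 60) (hm : m.Coprime 60) :
    ∃ ρ ∈ R60, (m * ρ) % 60 = r := by
  obtain ⟨ρ, h1, h2⟩ := Nat.exists_mul_mod_eq_of_coprime r hm (by norm_num)
  rw [Nat.mod_eq_of_lt hr] at h2
  refine ⟨ρ, Finset.mem_filter.2 ⟨Finset.mem_range.2 h1, ?_⟩, h2⟩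
  have h3 : (m * ρ).Coprime 60 := by
    have h4 : Nat.gcd r 60 = Nat.gcd (m * ρ) 60 := by
      rw [← h2]
      exact (Nat.mod_modEq (m * ρ) 60).gcd_eq
    unfold Nat.Coprime
    rw [← h4]
    exact hrc
  exact Nat.Coprime.coprime_mul_left h3

/-! ### pairs of patterns -/

open Classical in
/-- pairs of patterns which are good -/
noncomputable def GP (m s : ℕ) : Finset ((Fin s → Pat m) × Pat m) :=
  univ.filter (fun y => Good m ((∑ i, y.1 i) + y.2) y.1)

theorem good_s (hGood : StmtGood) (m s : ℕ) (w : Pat m) (hw : cork m w = s) [DecidablePred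
    fun φ : Fin s → Pat m => Good m w φ] : Fintype.card (Pat m) ^ s ≤
      4 ^ s * (univ.filter fun φ : Fin s → Pat m => Good m w φ).card := by
  subst hw
  have h := hGood m w
  convert h

theorem card_GP (hGood : StmtGood) (m s : ℕ) :
    Fintype.card (Pat m) ^ s * (univ.filter fun w : Pat m => cork m w = s).card ≤
      4 ^ s * (GP m s).card := by
  classical
  set Ws := univ.filter fun w : Pat m => cork m w = s with hWs
  have h1 : Fintype.card (Pat m) ^ s * Ws.card ≤
      ∑ w ∈ Ws, 4 ^ s * (univ.filter fun φ : Fin s → Pat m => Good m w φ).card := by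
    calc Fintype.card (Pat m) ^ s * Ws.card = ∑ w ∈ Ws, Fintype.card (Pat m) ^ s := by
          rw [Finset.sum_const, smul_eq_mul, mul_comm]
      _ ≤ _ := Finset.sum_le_sum fun w hw => good_s hGood m s w (Finset.mem_filter.1 hw).2
  refine h1.trans ?_
  rw [← Finset.mul_sum]
  refine Nat.mul_le_mul_left _ ?_
  rw [← Finset.card_sigma]
  refine Finset.card_le_card_of_injOn
    (fun x : (_ : Pat m) × (Fin s → Pat m) => (x.2, x.1 - ∑ i, x.2 i)) ?_ ?_
  · intro x hx
    have hx' := (Finset.mem_sigma.1 (Finset.mem_coe.1 hx)).2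
    have h2 := (Finset.mem_filter.1 hx').2
    refine Finset.mem_coe.2 (Finset.mem_filter.2 ⟨Finset.mem_univ _, ?_⟩)
    simp only [add_sub_cancel]
    exact h2
  · rintro ⟨w, φ⟩ _ ⟨w', φ'⟩ _ h
    simp only [Prod.mk.injEq] at h
    obtain ⟨h3, h4⟩ := h
    subst h3
    simp only [sub_left_inj] at h4
    subst h4
    rfl

open Classical in
/-- the primes of a box -/
noncomputable def FB (m s : ℕ) (e : Fin s → ℕ) (b ρ : ℕ) : Finset ((Fin s → ℕ) × ℕ) :=
  ((Fintype.piFinset fun i => PB (e i) 1) ×ˢ PB b ρ).filter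
    (fun y => Good m ((∑ i, sym m (y.1 i)) + sym m y.2) (fun i => sym m (y.1 i)))

theorem card_FB_ge {m s : ℕ} {e : Fin s → ℕ} {b ρ : ℕ} {u : Fin s → ℝ} {v : ℝ}
    (hu0 : ∀ i, 0 ≤ u i) (hv0 : 0 ≤ v)
    (hu : ∀ i (φ : Pat m), u i ≤ (((PB (e i) 1).filter (fun p => sym m p = φ)).card : ℝ))
    (hv : ∀ φ : Pat m, v ≤ (((PB b ρ).filter (fun p => sym m p = φ)).card : ℝ)) :
    ((GP m s).card : ℝ) * ((∏ i, u i) * v) ≤ ((FB m s e b ρ).card : ℝ) := by
  classical
  have hmap : ∀ y ∈ FB m s e b ρ, ((fun i => sym m (y.1 i)), sym m y.2) ∈ GP m s := by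
    intro y hy
    exact Finset.mem_filter.2 ⟨Finset.mem_univ _, (Finset.mem_filter.1 hy).2⟩
  have h1 := Finset.card_eq_sum_card_fiberwise hmap
  have h2 : ∀ g ∈ GP m s, (∏ i, u i) * v ≤ (((FB m s e b ρ).filter
      (fun y => ((fun i => sym m (y.1 i)), sym m y.2) = g)).card : ℝ) := by
    intro g hg
    have hgood := (Finset.mem_filter.1 hg).2
    have hsub : (Fintype.piFinset fun i => (PB (e i) 1).filter (fun p => sym m p = g.1 i)) ×ˢ
        ((PB b ρ).filter (fun p => sym m p = g.2)) ⊆ (FB m s e b ρ).filter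
      (fun y => ((fun i => sym m (y.1 i)), sym m y.2) = g) := by
      intro y hy
      obtain ⟨h3, h4⟩ := Finset.mem_product.1 hy
      rw [Fintype.mem_piFinset] at h3
      have h5 : ∀ i, sym m (y.1 i) = g.1 i := fun i => (Finset.mem_filter.1 (h3 i)).2
      have h6 : sym m y.2 = g.2 := (Finset.mem_filter.1 h4).2
      have h7 : (fun i => sym m (y.1 i)) = g.1 := funext h5
      refine Finset.mem_filter.2 ⟨Finset.mem_filter.2 ⟨Finset.mem_product.2
        ⟨Fintype.mem_piFinset.2 fun i => (Finset.mem_filter.1 (h3 i)).1,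
          (Finset.mem_filter.1 h4).1⟩, ?_⟩, ?_⟩
      · have h8 : (∑ i, sym m (y.1 i)) = ∑ i, g.1 i := Finset.sum_congr rfl fun i _ => h5 i
        rw [h8, h6, h7]
        exact hgood
      · rw [h7, h6]
    have h9 := Finset.card_le_card hsub
    rw [Finset.card_product, Fintype.card_piFinset] at h9
    calc (∏ i, u i) * v ≤ (∏ i, (((PB (e i) 1).filter (fun p => sym m p = g.1 i)).card : ℝ)) *
          (((PB b ρ).filter (fun p => sym m p = g.2)).card : ℝ) := by
          refine mul_le_mul (Finset.prod_le_prod (fun i _ => hu0 i) fun i _ => hu i _) (hv _) hv0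
            (Finset.prod_nonneg fun i _ => by positivity)
      _ ≤ _ := by exact_mod_cast h9
  rw [h1]
  push_cast
  calc ((GP m s).card : ℝ) * ((∏ i, u i) * v) = ∑ g ∈ GP m s, ((∏ i, u i) * v) := by
        rw [Finset.sum_const, nsmul_eq_mul]
    _ ≤ _ := Finset.sum_le_sum h2

/-- proportion of the patterns with corank `s` -/
noncomputable def prp (m s : ℕ) : ℝ :=
  ((univ.filter fun w : Pat m => cork m w = s).card : ℝ) / Fintype.card (Pat m)

theorem prp_nonneg (m s : ℕ) : 0 ≤ prp m s := by unfold prp; positivity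

theorem prp_le_one (m s : ℕ) : prp m s ≤ 1 := by
  unfold prp
  have hcard : (0 : ℝ) < Fintype.card (Pat m) := by exact_mod_cast Fintype.card_pos
  rw [div_le_one hcard]
  exact_mod_cast (Finset.card_le_univ _)

/-- The count in a box. -/
theorem box_ge (hGood : StmtGood) (hEq : StmtEq) {m s : ℕ} {e : Fin s → ℕ} {b ρ L : ℕ} (hm : Ok m)
    (hme : ∀ i, m ≤ 2 ^ e i) (hmb : m ≤ 2 ^ b) (hbe : ∀ i, ¬ Bad (e i) m) (hbb : ¬ Bad b m)
    (hρ : ρ ∈ R60) (hMe : ∀ i, (2 : ℝ) ^ e i / 20 ≤ Theta (2 ^ e i) 1 1)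
    (hMb : (2 : ℝ) ^ b / 20 ≤ Theta (2 ^ b) ρ 1) (hLe : ∀ i, e i + 1 ≤ L) (hLb : b + 1 ≤ L)
    (hsum : ∑ i, e i + b + (s + 2) + Nat.log 2 m = L) :
    prp m s * (1 / m) * (2 ^ L / (4 ^ s * 2 ^ (s + 2) * (40 * L) ^ (s + 1))) ≤
      ((FB m s e b ρ).card : ℝ) := by
  have h1R : 1 ∈ R60 := by decide
  have hP : (0 : ℝ) < Fintype.card (Pat m) := by exact_mod_cast Fintype.card_pos
  have hL : (0 : ℝ) < L := by exact_mod_cast (by omega : 0 < L)
  have hm0 : (0 : ℝ) < m := by exact_mod_cast hm.pos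
  have h1 := card_FB_ge (m := m) (s := s) (e := e) (b := b) (ρ := ρ)
    (u := fun i => (2 : ℝ) ^ e i / (40 * L * Fintype.card (Pat m)))
    (v := (2 : ℝ) ^ b / (40 * L * Fintype.card (Pat m))) (fun i => by positivity) (by positivity)
    (fun i φ => count_ge hEq hm (hme i) (hbe i) h1R (hMe i) (hLe i) φ)
    (fun φ => count_ge hEq hm hmb hbb hρ hMb hLb φ)
  refine le_trans ?_ h1
  rw [Finset.prod_div_distrib, Finset.prod_const, Finset.card_univ, Fintype.card_fin,
    Finset.prod_pow_eq_pow_sum]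
  have h2 : (Fintype.card (Pat m) : ℝ) ^ s * ((univ.filter fun w : Pat m =>
      cork m w = s).card : ℝ) ≤ 4 ^ s * ((GP m s).card : ℝ) := by
    exact_mod_cast card_GP hGood m s
  have h3 : (2 : ℝ) ^ L ≤ 2 ^ (∑ i, e i + b) * 2 ^ (s + 2) * m := by
    rw [← hsum, pow_add, pow_add _ _ (s + 2)]
    have h4 : ((2 : ℝ) ^ Nat.log 2 m) ≤ m := by exact_mod_cast Nat.pow_log_le_self 2 hm.pos.ne'
    gcongr
  set P : ℝ := (Fintype.card (Pat m) : ℝ) with hPdef
  set W : ℝ := ((univ.filter fun w : Pat m => cork m w = s).card : ℝ) with hW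
  have hW0 : 0 ≤ W := by positivity
  calc prp m s * (1 / m) * (2 ^ L / (4 ^ s * 2 ^ (s + 2) * (40 * L) ^ (s + 1)))
      = W / P * (1 / m) * (2 ^ L / (4 ^ s * 2 ^ (s + 2) * (40 * L) ^ (s + 1))) := rfl
    _ ≤ W / P * (1 / m) * ((2 ^ (∑ i, e i + b) * 2 ^ (s + 2) * m) /
          (4 ^ s * 2 ^ (s + 2) * (40 * L) ^ (s + 1))) := by gcongr
    _ = (P ^ s * W) * (2 ^ (∑ i, e i) * 2 ^ b / (4 ^ s * ((40 * L * P) ^ (s + 1)))) := by
        rw [pow_add (2 : ℝ) (∑ i, e i) b, mul_pow (40 * (L : ℝ)) P (s + 1), pow_succ P s]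
        field_simp
    _ ≤ (4 ^ s * ((GP m s).card : ℝ)) * (2 ^ (∑ i, e i) * 2 ^ b /
          (4 ^ s * ((40 * L * P) ^ (s + 1)))) := by gcongr
    _ = ((GP m s).card : ℝ) * (2 ^ (∑ i, e i) / (40 * L * P) ^ s * (2 ^ b / (40 * L * P))) := by
        rw [pow_succ (40 * (L : ℝ) * P) s]
        field_simp

/-! ### Markov -/

theorem card_pat (m : ℕ) : Fintype.card (Pat m) = 2 ^ m.primeFactors.card := by
  rw [Fintype.card_fun, ZMod.card, Fintype.card_coe]

theorem markov (hId : StmtId) {m : ℕ} (hm : Ok m) (K : ℕ) :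
    1 - (∑ b ∈ m.divisors, ∑ c ∈ (m / b).divisors, (jacobiSym b c : ℝ)) /
      2 ^ m.primeFactors.card / 2 ^ (K + 1) ≤ ∑ s ∈ range (K + 1), prp m s := by
  classical
  have hP : (0 : ℝ) < Fintype.card (Pat m) := by exact_mod_cast Fintype.card_pos
  have h0 := hId m hm.1 hm.odd
  have h1 : ∑ w : Pat m, (2 : ℝ) ^ cork m w =
      ∑ b ∈ m.divisors, ∑ c ∈ (m / b).divisors, (jacobiSym b c : ℝ) := by
    exact_mod_cast h0
  have h2 : ∑ s ∈ range (K + 1), prp m s =
      ((univ.filter fun w : Pat m => cork m w < K + 1).card : ℝ) / Fintype.card (Pat m) := by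
    unfold prp
    rw [← Finset.sum_div]
    congr 1
    have h3 : ∀ w ∈ univ.filter (fun w : Pat m => cork m w < K + 1), cork m w ∈ range (K + 1) :=
      fun w hw => Finset.mem_range.2 (Finset.mem_filter.1 hw).2
    rw [Finset.card_eq_sum_card_fiberwise h3]
    push_cast
    refine Finset.sum_congr rfl fun s hs => ?_
    congr 2
    ext w
    simp only [Finset.mem_filter, Finset.mem_univ, true_and]
    have := Finset.mem_range.1 hs
    constructor
    · intro h
      exact ⟨by omega, h⟩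
    · exact fun h => h.2
  have h4 : ((univ.filter fun w : Pat m => ¬ cork m w < K + 1).card : ℝ) * 2 ^ (K + 1) ≤
      ∑ w : Pat m, (2 : ℝ) ^ cork m w := by
    calc ((univ.filter fun w : Pat m => ¬ cork m w < K + 1).card : ℝ) * 2 ^ (K + 1) =
        ∑ w ∈ univ.filter (fun w : Pat m => ¬ cork m w < K + 1), (2 : ℝ) ^ (K + 1) := by
          rw [Finset.sum_const, nsmul_eq_mul]
      _ ≤ ∑ w ∈ univ.filter (fun w : Pat m => ¬ cork m w < K + 1), (2 : ℝ) ^ cork m w := by
          refine Finset.sum_le_sum fun w hw => ?_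
          exact pow_le_pow_right₀ (by norm_num) (not_lt.1 (Finset.mem_filter.1 hw).2)
      _ ≤ _ := Finset.sum_le_sum_of_subset_of_nonneg (Finset.filter_subset _ _)
          fun w _ _ => by positivity
  have h5 := Finset.card_filter_add_card_filter_not (s := (univ : Finset (Pat m)))
    (fun w : Pat m => cork m w < K + 1)
  have h6 : ((univ.filter fun w : Pat m => cork m w < K + 1).card : ℝ) +
      ((univ.filter fun w : Pat m => ¬ cork m w < K + 1).card : ℝ) = Fintype.card (Pat m) := by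
    exact_mod_cast h5
  have h7 : (Fintype.card (Pat m) : ℝ) = 2 ^ m.primeFactors.card := by
    rw [card_pat]
    push_cast
    rfl
  rw [h2, ← h7, ← h1, le_div_iff₀ hP, sub_mul, one_mul, div_div, div_mul_eq_mul_div,
    mul_comm (Fintype.card (Pat m) : ℝ) (2 ^ (K + 1)), mul_div_mul_right _ _ hP.ne']
  have h8 : ((univ.filter fun w : Pat m => ¬ cork m w < K + 1).card : ℝ) ≤
      (∑ w : Pat m, (2 : ℝ) ^ cork m w) / 2 ^ (K + 1) := by
    rw [le_div_iff₀ (by positivity)]
    exact h4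
  linarith

/-! ### injectivity -/

/-- the shape of `m, p_1, .., p_s, q` -/
structure Sh (A s m : ℕ) (p : Fin s → ℕ) (q : ℕ) : Prop where
  ok : Ok m
  lt : m < 2 ^ A
  pp : ∀ i, (p i).Prime
  lo : ∀ i : Fin s, 2 ^ ((4 + i) * A) < p i
  hi : ∀ i : Fin s, p i ≤ 2 ^ ((5 + i) * A)
  qp : q.Prime
  ql : 2 ^ ((4 + s) * A) < q

namespace Sh

variable {A s m m' : ℕ} {p p' : Fin s → ℕ} {q q' : ℕ}

theorem m_lt_p (h : Sh A s m p q) (h' : Sh A s m' p' q') (i : Fin s) : m' < p i := by
  refine h'.lt.trans_le (le_trans ?_ (h.lo i).le)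
  exact Nat.pow_le_pow_right (by norm_num) (Nat.le_mul_of_pos_left _ (by omega))

theorem m_lt_q (h : Sh A s m p q) (h' : Sh A s m' p' q') : m' < q := by
  refine h'.lt.trans_le (le_trans ?_ h.ql.le)
  exact Nat.pow_le_pow_right (by norm_num) (Nat.le_mul_of_pos_left _ (by omega))

theorem p_lt_q (h : Sh A s m p q) (h' : Sh A s m' p' q') (i : Fin s) : p i < q' := by
  refine (h.hi i).trans_lt (lt_of_le_of_lt ?_ h'.ql)
  refine Nat.pow_le_pow_right (by norm_num) (Nat.mul_le_mul_right _ ?_)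
  have := i.2
  omega

theorem p_lt_p (h : Sh A s m p q) (h' : Sh A s m' p' q') {i j : Fin s} (hij : i < j) :
    p i < p' j := by
  refine (h.hi i).trans_lt (lt_of_le_of_lt ?_ (h'.lo j))
  refine Nat.pow_le_pow_right (by norm_num) (Nat.mul_le_mul_right _ ?_)
  have : (i : ℕ) < j := hij
  omega

theorem inj_p (h : Sh A s m p q) (h' : Sh A s m' p' q')
    (e : m * (∏ i, p i) * q = m' * (∏ i, p' i) * q') : p = p' := by
  funext i
  have hd : p i ∣ m' * (∏ i, p' i) * q' := by
    rw [← e]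
    exact Dvd.dvd.mul_right (Dvd.dvd.mul_left (Finset.dvd_prod_of_mem p (Finset.mem_univ i)) _) _
  rcases (h.pp i).dvd_mul.1 hd with h1 | h1
  · rcases (h.pp i).dvd_mul.1 h1 with h2 | h2
    · have := Nat.le_of_dvd h'.ok.pos h2
      have := h.m_lt_p h' i
      omega
    · obtain ⟨j, -, hj⟩ := (h.pp i).prime.exists_mem_finset_dvd h2
      have hj' := (Nat.prime_dvd_prime_iff_eq (h.pp i) (h'.pp j)).1 hj
      rcases lt_trichotomy i j with h3 | h3 | h3
      · have := h.p_lt_p h' h3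
        omega
      · rw [hj', h3]
      · have := h'.p_lt_p h h3
        omega
  · have h2 := (Nat.prime_dvd_prime_iff_eq (h.pp i) h'.qp).1 h1
    have := h.p_lt_q h' i
    omega

theorem inj (h : Sh A s m p q) (h' : Sh A s m' p' q')
    (e : m * (∏ i, p i) * q = m' * (∏ i, p' i) * q') : m = m' ∧ p = p' ∧ q = q' := by
  have hp := inj_p h h' e
  subst hp
  have hq : q = q' := by
    have hd : q ∣ m' * (∏ i, p i) * q' := by
      rw [← e]
      exact Dvd.intro_left _ rfl
    rcases h.qp.dvd_mul.1 hd with h1 | h1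
    · rcases h.qp.dvd_mul.1 h1 with h2 | h2
      · have := Nat.le_of_dvd h'.ok.pos h2
        have := h.m_lt_q h'
        omega
      · obtain ⟨j, -, hj⟩ := h.qp.prime.exists_mem_finset_dvd h2
        have hj' := (Nat.prime_dvd_prime_iff_eq h.qp (h'.pp j)).1 hj
        have := h'.p_lt_q h j
        omega
    · exact (Nat.prime_dvd_prime_iff_eq h.qp h'.qp).1 h1
  subst hq
  refine ⟨?_, rfl, rfl⟩
  have h1 : 0 < ∏ i, p i := Finset.prod_pos fun i _ => (h.pp i).pos
  exact Nat.eq_of_mul_eq_mul_right h1 (Nat.eq_of_mul_eq_mul_right h.qp.pos e)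

theorem injective (h : Sh A s m p q) : Function.Injective p := by
  intro i j hij
  rcases lt_trichotomy i j with h3 | h3 | h3
  · have := h.p_lt_p h h3
    omega
  · exact h3
  · have := h.p_lt_p h h3
    omega

theorem sqf (h : Sh A s m p q) : Squarefree (m * (∏ i, p i) * q) := by
  have h1 : Squarefree (∏ i, p i) := by
    refine Finset.squarefree_prod_of_pairwise_isCoprime ?_ fun i _ => (h.pp i).squarefree
    intro i _ j _ hij
    refine Nat.coprime_iff_isRelPrime.1 ?_
    exact (Nat.coprime_primes (h.pp i) (h.pp j)).2 fun hh => hij (h.injective hh)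
  have h2 : Nat.Coprime m (∏ i, p i) := by
    refine Nat.Coprime.prod_right fun i _ => ?_
    refine Nat.Coprime.symm ((Nat.Prime.coprime_iff_not_dvd (h.pp i)).2 fun hh => ?_)
    have := Nat.le_of_dvd h.ok.pos hh
    have := h.m_lt_p h i
    omega
  have h3 : Squarefree (m * ∏ i, p i) := (Nat.squarefree_mul h2).2 ⟨h.ok.1, h1⟩
  have h4 : Nat.Coprime (m * ∏ i, p i) q := by
    refine Nat.Coprime.mul_left ?_ (Nat.Coprime.prod_left fun i _ => ?_)
    · refine Nat.Coprime.symm ((Nat.Prime.coprime_iff_not_dvd h.qp).2 fun hh => ?_)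
      have := Nat.le_of_dvd h.ok.pos hh
      have := h.m_lt_q h
      omega
    · refine (Nat.coprime_primes (h.pp i) h.qp).2 ?_
      have := h.p_lt_q h i
      omega
  exact (Nat.squarefree_mul h4).2 ⟨h3, h.qp.squarefree⟩

end Sh

end Vale.Agent.P017.R2.H420
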