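import Vale.Agent.P017.R2.H985.Defs

/-!
# P017, module M7b: the count of `d`, auxiliary facts
-/

open Finset

namespace Vale.Agent.P017.R2.H420

open Vale.Agent.P017.R2.H985
open Vale.Agent.P017.H185 (Redei)

/-! ### bad `m` -/

/-- the classes modulo `60` -/
def R60 : Finset ℕ := (range 60).filter (fun ρ => ρ.Coprime 60)

/-- `m` is bad at the scale `2 ^ n` -/
def Bad (n m : ℕ) : Prop :=
  ∃ ρ ∈ R60, (2 : ℝ) ^ n / 40 < ∑ c ∈ m.divisors.erase 1, |Theta (2 ^ n) ρ c|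

/-- squarefree and prime to `30` -/
def Ok (m : ℕ) : Prop := Squarefree m ∧ m.Coprime 30

theorem Ok.odd {m : ℕ} (h : Ok m) : Odd m := by
  have h2 : m.Coprime 2 := Nat.Coprime.coprime_dvd_right (by norm_num) h.2
  exact Nat.coprime_two_right.1 h2

theorem Ok.pos {m : ℕ} (h : Ok m) : 0 < m := Nat.pos_of_ne_zero h.1.ne_zero

theorem Ok.cop60 {m : ℕ} (h : Ok m) : m.Coprime 60 := by
  have h2 : m.Coprime 2 := Nat.Coprime.coprime_dvd_right (by norm_num) h.2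
  have : (60 : ℕ) = 2 * 30 := by norm_num
  rw [this]
  exact Nat.Coprime.mul_right h2 h.2

theorem Ok.dvd {m c : ℕ} (h : Ok m) (hc : c ∣ m) : Ok c :=
  ⟨h.1.squarefree_of_dvd hc, Nat.Coprime.coprime_dvd_left hc h.2⟩

/-- multiples of `c` in a dyadic block -/
theorem sum_mult (c a : ℕ) (hc : 1 ≤ c) :
    ∑ m ∈ (Ico (2 ^ a) (2 ^ (a + 1))).filter (fun m => c ∣ m), 1 / (m : ℝ) ≤ 3 / c := by
  have hc' : (0 : ℝ) < c := by exact_mod_cast hc
  have h2a : (0 : ℝ) < 2 ^ a := by positivity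
  by_cases hlt : 2 ^ (a + 1) ≤ c
  · have : (Ico (2 ^ a) (2 ^ (a + 1))).filter (fun m => c ∣ m) = ∅ := by
      refine Finset.filter_eq_empty_iff.2 fun m hm hcm => ?_
      have h1 := Finset.mem_Ico.1 hm
      have h2 : 0 < m := lt_of_lt_of_le (by positivity) h1.1
      have h3 := Nat.le_of_dvd h2 hcm
      omega
    rw [this, Finset.sum_empty]
    positivity
  · have hlt' : (c : ℝ) < 2 ^ (a + 1) := by exact_mod_cast Nat.lt_of_not_le hlt
    have hcard : ((((Ico (2 ^ a) (2 ^ (a + 1))).filter (fun m => c ∣ m)).card : ℕ) : ℝ) ≤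
        2 ^ a / c + 1 := by
      have e : (Ico (2 ^ a) (2 ^ (a + 1))).filter (fun m => c ∣ m) =
          (Ico (2 ^ a) (2 ^ (a + 1))).filter (fun m => m ≡ 0 [MOD c]) := by
        refine Finset.filter_congr fun m _ => ?_
        rw [Nat.modEq_zero_iff_dvd]
      have h := Nat.Ico_filter_modEq_card (2 ^ a) (2 ^ (a + 1)) (r := c) hc 0
      rw [← e] at h
      have h' : ((((Ico (2 ^ a) (2 ^ (a + 1))).filter (fun m => c ∣ m)).card : ℤ) : ℝ) ≤
          2 ^ a / c + 1 := by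
        rw [h]
        push_cast
        have u1 := Int.ceil_lt_add_one (((2 : ℚ) ^ (a + 1) - 0) / c)
        have u2 := Int.le_ceil (((2 : ℚ) ^ a - 0) / c)
        have u3 : ((⌈((2 : ℚ) ^ (a + 1) - 0) / c⌉ : ℤ) : ℚ) - (⌈((2 : ℚ) ^ a - 0) / c⌉ : ℤ) ≤
            2 ^ a / c + 1 := by
          have : ((2 : ℚ) ^ (a + 1) - 0) / c = ((2 : ℚ) ^ a - 0) / c + 2 ^ a / c := by ring
          linarith
        have u4 : (((⌈((2 : ℚ) ^ (a + 1) - 0) / c⌉ : ℤ) : ℝ) - (⌈((2 : ℚ) ^ a - 0) / c⌉ : ℤ) : ℝ)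
            ≤ 2 ^ a / c + 1 := by
          have h9 := (Rat.cast_le (K := ℝ)).2 u3
          push_cast at h9
          exact h9
        exact max_le u4 (by positivity)
      exact_mod_cast h'
    calc ∑ m ∈ (Ico (2 ^ a) (2 ^ (a + 1))).filter (fun m => c ∣ m), 1 / (m : ℝ)
        ≤ ∑ m ∈ (Ico (2 ^ a) (2 ^ (a + 1))).filter (fun m => c ∣ m), 1 / (2 : ℝ) ^ a := by
          refine Finset.sum_le_sum fun m hm => ?_
          have h1 := (Finset.mem_Ico.1 (Finset.mem_filter.1 hm).1).1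
          have h2 : (2 : ℝ) ^ a ≤ m := by exact_mod_cast h1
          exact one_div_le_one_div_of_le h2a h2
      _ = ((((Ico (2 ^ a) (2 ^ (a + 1))).filter (fun m => c ∣ m)).card : ℕ) : ℝ) * (1 / 2 ^ a) := by
          rw [Finset.sum_const, nsmul_eq_mul]
      _ ≤ (2 ^ a / c + 1) * (1 / 2 ^ a) := by gcongr
      _ = 1 / c + 1 / 2 ^ a := by field_simp
      _ ≤ 1 / c + 2 / c := by
          have : 1 / (2 : ℝ) ^ a ≤ 2 / c := by
            rw [div_le_div_iff₀ h2a hc']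
            have : (2 : ℝ) ^ (a + 1) = 2 * 2 ^ a := by ring
            linarith
          linarith
      _ = 3 / c := by ring

open Classical in
/-- the bad `m` of a dyadic block -/
theorem bad_block {ε : ℝ} {N₀ : ℕ} (hCS : ∀ N : ℕ, N₀ ≤ N → ∀ r : ℕ, r < 60 →
    r.Coprime 60 → ∑ c ∈ (Icc 2 N).filter (fun c => c ^ 4 ≤ N ∧ Squarefree c ∧ c.Coprime 30),
      |Theta N r c| / c ≤ ε * N) {n a A : ℕ} (hn : N₀ ≤ 2 ^ n) (hA : 4 * A ≤ n) (ha : a < A) :
    ∑ m ∈ (Ico (2 ^ a) (2 ^ (a + 1))).filter (fun m => Ok m ∧ Bad n m), 1 / (m : ℝ) ≤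
      7200 * ε := by
  set B := (Ico (2 ^ a) (2 ^ (a + 1))).filter (fun m => Ok m ∧ Bad n m) with hB
  set Cs := (Icc 2 (2 ^ n)).filter (fun c => c ^ 4 ≤ 2 ^ n ∧ Squarefree c ∧ c.Coprime 30) with hCs
  have h2n : (0 : ℝ) < 2 ^ n := by positivity
  have hsub : ∀ m ∈ B, m.divisors.erase 1 ⊆ Cs.filter (fun c => c ∣ m) := by
    intro m hm c hc
    obtain ⟨hm1, hm2, -⟩ := Finset.mem_filter.1 hm
    obtain ⟨hc1, hc2⟩ := Finset.mem_erase.1 hc
    have hcm := (Nat.mem_divisors.1 hc2).1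
    have hok := hm2.dvd hcm
    have hlt : c < 2 ^ A := by
      calc c ≤ m := Nat.le_of_dvd hm2.pos hcm
        _ < 2 ^ (a + 1) := (Finset.mem_Ico.1 hm1).2
        _ ≤ 2 ^ A := Nat.pow_le_pow_right (by norm_num) (by omega)
    have h4 : c ^ 4 ≤ 2 ^ n := by
      calc c ^ 4 ≤ (2 ^ A) ^ 4 := Nat.pow_le_pow_left hlt.le 4
        _ = 2 ^ (4 * A) := by rw [← pow_mul, mul_comm]
        _ ≤ 2 ^ n := Nat.pow_le_pow_right (by norm_num) hA
    have hcpos := hok.pos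
    have h1 : c ≤ 2 ^ n := (Nat.le_self_pow (by norm_num) c).trans h4
    simp only [hCs, Finset.mem_filter, Finset.mem_Icc]
    exact ⟨⟨⟨by omega, h1⟩, h4, hok.1, hok.2⟩, hcm⟩
  have step1 : ∀ m ∈ B, 1 / (m : ℝ) ≤
      40 / 2 ^ n * ∑ ρ ∈ R60, ∑ c ∈ Cs, if c ∣ m then |Theta (2 ^ n) ρ c| * (1 / m) else 0 := by
    intro m hm
    obtain ⟨hm1, hm2, ρ, hρ, hb⟩ := Finset.mem_filter.1 hm
    have hmpos : (0 : ℝ) < m := by exact_mod_cast hm2.pos
    have e1 : ∀ ρ : ℕ, ∑ c ∈ m.divisors.erase 1, |Theta (2 ^ n) ρ c| * (1 / (m : ℝ)) ≤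
        ∑ c ∈ Cs, if c ∣ m then |Theta (2 ^ n) ρ c| * (1 / m) else 0 := by
      intro ρ
      rw [← Finset.sum_filter]
      exact Finset.sum_le_sum_of_subset_of_nonneg (hsub m hm) fun c _ _ => by positivity
    have e2 : ∑ c ∈ m.divisors.erase 1, |Theta (2 ^ n) ρ c| * (1 / (m : ℝ)) ≤
        ∑ ρ ∈ R60, ∑ c ∈ Cs, if c ∣ m then |Theta (2 ^ n) ρ c| * (1 / m) else 0 :=
      (e1 ρ).trans (Finset.single_le_sum (f := fun ρ => ∑ c ∈ Cs, if c ∣ m then
        |Theta (2 ^ n) ρ c| * (1 / (m : ℝ)) else 0) (fun ρ _ => Finset.sum_nonneg fun c _ => by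
          split_ifs <;> positivity) hρ)
    calc 1 / (m : ℝ) = 40 / 2 ^ n * (2 ^ n / 40 * (1 / m)) := by field_simp
      _ ≤ 40 / 2 ^ n * ((∑ c ∈ m.divisors.erase 1, |Theta (2 ^ n) ρ c|) * (1 / m)) := by gcongr
      _ = 40 / 2 ^ n * ∑ c ∈ m.divisors.erase 1, |Theta (2 ^ n) ρ c| * (1 / m) := by
          rw [Finset.sum_mul]
      _ ≤ _ := by gcongr
  have step2 : ∀ c ∈ Cs, ∑ m ∈ B, (if c ∣ m then (1 / (m : ℝ)) else 0) ≤ 3 / c := by
    intro c hc
    have hc1 : 1 ≤ c := by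
      have := (Finset.mem_Icc.1 (Finset.mem_filter.1 hc).1).1
      omega
    rw [← Finset.sum_filter]
    refine le_trans (Finset.sum_le_sum_of_subset_of_nonneg ?_ fun m _ _ => by positivity)
      (sum_mult c a hc1)
    intro m hm
    obtain ⟨h1, h2⟩ := Finset.mem_filter.1 hm
    exact Finset.mem_filter.2 ⟨(Finset.mem_filter.1 h1).1, h2⟩
  calc ∑ m ∈ B, 1 / (m : ℝ)
      ≤ ∑ m ∈ B, 40 / 2 ^ n * ∑ ρ ∈ R60, ∑ c ∈ Cs,
          (if c ∣ m then |Theta (2 ^ n) ρ c| * (1 / m) else 0) := Finset.sum_le_sum step1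
    _ = 40 / 2 ^ n * ∑ ρ ∈ R60, ∑ c ∈ Cs, |Theta (2 ^ n) ρ c| *
          ∑ m ∈ B, (if c ∣ m then (1 / (m : ℝ)) else 0) := by
        rw [← Finset.mul_sum, Finset.sum_comm]
        congr 1
        refine Finset.sum_congr rfl fun ρ _ => ?_
        rw [Finset.sum_comm]
        refine Finset.sum_congr rfl fun c _ => ?_
        rw [Finset.mul_sum]
        exact Finset.sum_congr rfl fun m _ => by split_ifs <;> simp
    _ ≤ 40 / 2 ^ n * ∑ ρ ∈ R60, ∑ c ∈ Cs, |Theta (2 ^ n) ρ c| * (3 / c) := by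
        gcongr with ρ _ c hc
        exact step2 c hc
    _ = 40 / 2 ^ n * ∑ ρ ∈ R60, 3 * ∑ c ∈ Cs, |Theta (2 ^ n) ρ c| / c := by
        congr 1
        refine Finset.sum_congr rfl fun ρ _ => ?_
        rw [Finset.mul_sum]
        exact Finset.sum_congr rfl fun c _ => by ring
    _ ≤ 40 / 2 ^ n * ∑ ρ ∈ R60, 3 * (ε * ((2 ^ n : ℕ) : ℝ)) := by
        gcongr with ρ hρ
        have h1 := Finset.mem_filter.1 hρ
        exact hCS (2 ^ n) hn ρ (Finset.mem_range.1 h1.1) h1.2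
    _ = 40 / 2 ^ n * ((R60.card : ℝ) * (3 * (ε * 2 ^ n))) := by
        rw [Finset.sum_const, nsmul_eq_mul]
        push_cast
        rfl
    _ = (R60.card : ℝ) * (120 * ε) := by field_simp; ring
    _ ≤ 7200 * ε := by
        have h16 : R60.card = 16 := by decide
        rw [h16]
        have hε : 0 ≤ ε := by
          have h := hCS (2 ^ n) hn 1 (by norm_num) (by norm_num)
          have h0 : (0 : ℝ) ≤ ∑ c ∈ Cs, |Theta (2 ^ n) 1 c| / c :=
            Finset.sum_nonneg fun c _ => by positivity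
          have h1 : 0 ≤ ε * ((2 ^ n : ℕ) : ℝ) := h0.trans h
          push_cast at h1
          exact nonneg_of_mul_nonneg_left h1 h2n
        push_cast
        nlinarith

/-- a weight which is bad at the scale `ν (log m)` -/
theorem bad_total {ε : ℝ} {N₀ : ℕ} (hCS : ∀ N : ℕ, N₀ ≤ N → ∀ r : ℕ, r < 60 →
    r.Coprime 60 → ∑ c ∈ (Icc 2 N).filter (fun c => c ^ 4 ≤ N ∧ Squarefree c ∧ c.Coprime 30),
      |Theta N r c| / c ≤ ε * N) {A : ℕ} (ν : ℕ → ℕ) (hn : ∀ a < A, N₀ ≤ 2 ^ ν a)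
    (hA : ∀ a < A, 4 * A ≤ ν a) (ms : Finset ℕ) (hms : ∀ m ∈ ms, Ok m ∧ m < 2 ^ A)
    (P : ℕ → Prop) [DecidablePred P] (hP : ∀ m ∈ ms, P m → Bad (ν (Nat.log 2 m)) m) :
    ∑ m ∈ ms, (if P m then 1 / (m : ℝ) else 0) ≤ A * (7200 * ε) := by
  classical
  have hlog : ∀ m ∈ ms, Nat.log 2 m ∈ range A := by
    intro m hm
    obtain ⟨h1, h2⟩ := hms m hm
    exact Finset.mem_range.2 (Nat.log_lt_of_lt_pow h1.pos.ne' h2)
  rw [← Finset.sum_fiberwise_of_maps_to hlog]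
  have h1 : ∀ a ∈ range A, ∑ m ∈ ms.filter (fun m => Nat.log 2 m = a),
      (if P m then 1 / (m : ℝ) else 0) ≤ 7200 * ε := by
    intro a ha
    have ha' := Finset.mem_range.1 ha
    rw [← Finset.sum_filter]
    refine le_trans (Finset.sum_le_sum_of_subset_of_nonneg ?_ fun m _ _ => by positivity)
      (bad_block hCS (hn a ha') (hA a ha') ha')
    intro m hm
    obtain ⟨h2, h3⟩ := Finset.mem_filter.1 hm
    obtain ⟨h4, h5⟩ := Finset.mem_filter.1 h2
    obtain ⟨h6, h7⟩ := hms m h4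
    have hb := hP m h4 h3
    rw [h5] at hb
    refine Finset.mem_filter.2 ⟨Finset.mem_Ico.2 ⟨?_, ?_⟩, h6, hb⟩
    · rw [← h5]
      exact Nat.pow_log_le_self 2 h6.pos.ne'
    · rw [← h5]
      exact Nat.lt_pow_succ_log_self (by norm_num) m
  calc ∑ a ∈ range A, ∑ m ∈ ms.filter (fun m => Nat.log 2 m = a), (if P m then 1 / (m : ℝ) else 0)
      ≤ ∑ a ∈ range A, 7200 * ε := Finset.sum_le_sum h1
    _ = A * (7200 * ε) := by rw [Finset.sum_const, Finset.card_range, nsmul_eq_mul]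

/-! ### primes with given symbols -/

/-- primes of a dyadic block in a class -/
def PB (n ρ : ℕ) : Finset ℕ := (Ioc (2 ^ n) (2 * 2 ^ n)).filter (fun p => p.Prime ∧ p % 60 = ρ)

theorem count_ge (hEq : StmtEq) {m n L ρ : ℕ} (hm : Ok m) (hmn : m ≤ 2 ^ n) (hb : ¬ Bad n m)
    (hρ : ρ ∈ R60) (hMain : (2 : ℝ) ^ n / 20 ≤ Theta (2 ^ n) ρ 1) (hL : n + 1 ≤ L) (φ : Pat m) :
    (2 : ℝ) ^ n / (40 * L * Fintype.card (Pat m)) ≤
      (((PB n ρ).filter (fun p => sym m p = φ)).card : ℝ) := by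
  have h1 := hEq m (2 ^ n) ρ hm.1 hm.odd hmn φ
  have h2 : ∑ c ∈ m.divisors.erase 1, |Theta (2 ^ n) ρ c| ≤ 2 ^ n / 40 := by
    by_contra h
    exact hb ⟨ρ, hρ, not_le.1 h⟩
  have hcard : (0 : ℝ) < Fintype.card (Pat m) := by exact_mod_cast Fintype.card_pos
  have hL0 : (0 : ℝ) < L := by exact_mod_cast (by omega : 0 < L)
  have h3 : ∑ p ∈ (Ioc (2 ^ n) (2 * 2 ^ n)).filter
      (fun p => p.Prime ∧ p % 60 = ρ ∧ sym m p = φ), Real.log p ≤
      (((PB n ρ).filter (fun p => sym m p = φ)).card : ℝ) * L := by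
    have e : (Ioc (2 ^ n) (2 * 2 ^ n)).filter (fun p => p.Prime ∧ p % 60 = ρ ∧ sym m p = φ) =
        (PB n ρ).filter (fun p => sym m p = φ) := by
      unfold PB
      rw [Finset.filter_filter]
      exact Finset.filter_congr fun p _ => by rw [and_assoc]
    rw [e]
    calc _ ≤ ∑ p ∈ (PB n ρ).filter (fun p => sym m p = φ), (L : ℝ) := by
          refine Finset.sum_le_sum fun p hp => ?_
          have hp1 := Finset.mem_Ioc.1 (Finset.mem_filter.1 (Finset.mem_filter.1 hp).1).1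
          have hp0 : (0 : ℝ) < p := by
            have : 0 < p := lt_of_le_of_lt (Nat.zero_le _) hp1.1
            exact_mod_cast this
          have hp2 : (p : ℝ) ≤ 2 ^ (n + 1) := by
            have h : p ≤ 2 ^ (n + 1) := by
              rw [pow_succ, mul_comm]
              exact hp1.2
            exact_mod_cast h
          calc Real.log p ≤ Real.log (2 ^ (n + 1)) := Real.log_le_log hp0 hp2
            _ = (n + 1 : ℕ) * Real.log 2 := by rw [Real.log_pow]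
            _ ≤ (n + 1 : ℕ) * 1 := by
                have := Real.log_two_lt_d9
                gcongr
                linarith
            _ ≤ L := by
                rw [mul_one]
                exact_mod_cast hL
      _ = _ := by rw [Finset.sum_const, nsmul_eq_mul]
  have h4 : (2 : ℝ) ^ n / 40 ≤ Fintype.card (Pat m) *
      ((((PB n ρ).filter (fun p => sym m p = φ)).card : ℝ) * L) := by
    calc (2 : ℝ) ^ n / 40 ≤ Theta (2 ^ n) ρ 1 - ∑ c ∈ m.divisors.erase 1, |Theta (2 ^ n) ρ c| := by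
          linarith
      _ ≤ _ := h1
      _ ≤ _ := by gcongr
  rw [div_le_iff₀ (by positivity)]
  linarith

end Vale.Agent.P017.R2.H420
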