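import Vale.Agent.P017.R2.H420.Box

/-!
# P017, module M7b: the count for one `s`
-/

open Finset

namespace Vale.Agent.P017.R2.H420

open Vale.Agent.P017.R2.H985
open Vale.Agent.P017.H185 (Redei)

/-- the range of `m` -/
def ms (A : ℕ) : Finset ℕ := (Icc 1 (2 ^ A - 1)).filter (fun m => Squarefree m ∧ m.Coprime 30)

/-- the exponents of `p_1, .., p_s` -/
def Wd (A s : ℕ) : Finset (Fin s → ℕ) :=
  Fintype.piFinset fun i : Fin s => Ico ((4 + i) * A) ((5 + i) * A)

theorem card_Wd (A s : ℕ) : (Wd A s).card = A ^ s := by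
  unfold Wd
  rw [Fintype.card_piFinset]
  have : ∀ i : Fin s, (Ico ((4 + (i : ℕ)) * A) ((5 + i) * A)).card = A := by
    intro i
    rw [Nat.card_Ico]
    have : (5 + (i : ℕ)) * A = (4 + i) * A + A := by ring
    omega
  simp only [this, Finset.prod_const, Finset.card_univ, Fintype.card_fin]

/-- the exponent of `q` -/
def bb (L s : ℕ) (m : ℕ) (e : Fin s → ℕ) : ℕ := L - (s + 2) - Nat.log 2 m - ∑ i, e i

theorem mem_ms {A m : ℕ} (h : m ∈ ms A) : Ok m ∧ m < 2 ^ A := by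
  obtain ⟨h1, h2⟩ := Finset.mem_filter.1 h
  have h3 := Finset.mem_Icc.1 h1
  have : 0 < 2 ^ A := by positivity
  exact ⟨h2, by omega⟩

section

variable {K s A L : ℕ}

theorem budget (hs : s ≤ K) (hA : 1 ≤ A) (hL : (K * K + 7 * K + 7) * A ≤ L) {e : Fin s → ℕ}
    (he : e ∈ Wd A s) {a : ℕ} (ha : a < A) : ∑ i, e i + (s + 2) + a + (4 + s) * A ≤ L := by
  have h1 : ∀ i, e i ≤ (5 + K) * A := by
    intro i
    have h2 := Finset.mem_Ico.1 (Fintype.mem_piFinset.1 he i)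
    have h3 : (5 + (i : ℕ)) * A ≤ (5 + K) * A := Nat.mul_le_mul_right _ (by omega)
    omega
  have h2 : ∑ i, e i ≤ s * ((5 + K) * A) := by
    calc ∑ i, e i ≤ ∑ _i : Fin s, (5 + K) * A := Finset.sum_le_sum fun i _ => h1 i
      _ = s * ((5 + K) * A) := by rw [Finset.sum_const, Finset.card_univ, Fintype.card_fin,
          smul_eq_mul]
  have h3 : s * ((5 + K) * A) ≤ K * ((5 + K) * A) := Nat.mul_le_mul_right _ hs
  have h4 : s + 2 ≤ (K + 2) * A := by nlinarith
  have h5 : (4 + s) * A ≤ (4 + K) * A := Nat.mul_le_mul_right _ (by omega)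
  have h6 : K * ((5 + K) * A) + (K + 2) * A + A + (4 + K) * A = (K * K + 7 * K + 7) * A := by ring
  omega

theorem bb_sum (hs : s ≤ K) (hA : 1 ≤ A) (hL : (K * K + 7 * K + 7) * A ≤ L) {e : Fin s → ℕ}
    (he : e ∈ Wd A s) {m : ℕ} (hm : m ∈ ms A) :
    ∑ i, e i + bb L s m e + (s + 2) + Nat.log 2 m = L ∧ (4 + s) * A ≤ bb L s m e := by
  obtain ⟨h1, h2⟩ := mem_ms hm
  have h3 : Nat.log 2 m < A := Nat.log_lt_of_lt_pow h1.pos.ne' h2
  have h4 := budget hs hA hL he h3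
  unfold bb
  omega

theorem sh_of (hs : s ≤ K) (hA : 1 ≤ A) (hL : (K * K + 7 * K + 7) * A ≤ L) {e : Fin s → ℕ}
    (he : e ∈ Wd A s) {m : ℕ} (hm : m ∈ ms A) {ρ : ℕ} {y : (Fin s → ℕ) × ℕ}
    (hy : y ∈ FB m s e (bb L s m e) ρ) : Sh A s m y.1 y.2 := by
  classical
  obtain ⟨h1, h2⟩ := mem_ms hm
  obtain ⟨h3, h4⟩ := Finset.mem_product.1 (Finset.mem_filter.1 hy).1
  have h5 := Fintype.mem_piFinset.1 h3
  have h6 := (bb_sum hs hA hL he hm).2
  obtain ⟨h7, h8⟩ := Finset.mem_filter.1 h4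
  refine ⟨h1, h2, fun i => (Finset.mem_filter.1 (h5 i)).2.1, fun i => ?_, fun i => ?_, h8.1, ?_⟩
  · have h9 := (Finset.mem_Ioc.1 (Finset.mem_filter.1 (h5 i)).1).1
    have h10 := Finset.mem_Ico.1 (Fintype.mem_piFinset.1 he i)
    exact (Nat.pow_le_pow_right (by norm_num) h10.1).trans_lt h9
  · have h9 := (Finset.mem_Ioc.1 (Finset.mem_filter.1 (h5 i)).1).2
    have h10 := Finset.mem_Ico.1 (Fintype.mem_piFinset.1 he i)
    calc y.1 i ≤ 2 * 2 ^ e i := h9
      _ = 2 ^ (e i + 1) := by rw [pow_succ, mul_comm]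
      _ ≤ 2 ^ ((5 + (i : ℕ)) * A) := Nat.pow_le_pow_right (by norm_num) h10.2
  · exact (Nat.pow_le_pow_right (by norm_num) h6).trans_lt (Finset.mem_Ioc.1 h7).1

theorem d_le (hs : s ≤ K) (hA : 1 ≤ A) (hL : (K * K + 7 * K + 7) * A ≤ L) {e : Fin s → ℕ}
    (he : e ∈ Wd A s) {m : ℕ} (hm : m ∈ ms A) {ρ : ℕ} {y : (Fin s → ℕ) × ℕ}
    (hy : y ∈ FB m s e (bb L s m e) ρ) : m * (∏ i, y.1 i) * y.2 ≤ 2 ^ L := by
  classical
  obtain ⟨h3, h4⟩ := Finset.mem_product.1 (Finset.mem_filter.1 hy).1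
  have h5 := Fintype.mem_piFinset.1 h3
  have h6 := (bb_sum hs hA hL he hm).1
  have h7 : m ≤ 2 ^ (Nat.log 2 m + 1) := (Nat.lt_pow_succ_log_self (by norm_num) m).le
  have h8 : ∏ i, y.1 i ≤ 2 ^ (∑ i, e i + s) := by
    calc ∏ i, y.1 i ≤ ∏ i, 2 ^ (e i + 1) := Finset.prod_le_prod' fun i _ => by
          have h9 := (Finset.mem_Ioc.1 (Finset.mem_filter.1 (h5 i)).1).2
          rw [pow_succ, mul_comm]
          exact h9
      _ = 2 ^ (∑ i, (e i + 1)) := Finset.prod_pow_eq_pow_sum _ _ _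
      _ = 2 ^ (∑ i, e i + s) := by
          rw [Finset.sum_add_distrib, Finset.sum_const, Finset.card_univ, Fintype.card_fin,
            smul_eq_mul, mul_one]
  have h9 : y.2 ≤ 2 ^ (bb L s m e + 1) := by
    rw [pow_succ, mul_comm]
    exact (Finset.mem_Ioc.1 (Finset.mem_filter.1 h4).1).2
  calc m * (∏ i, y.1 i) * y.2 ≤ 2 ^ (Nat.log 2 m + 1) * 2 ^ (∑ i, e i + s) *
        2 ^ (bb L s m e + 1) := Nat.mul_le_mul (Nat.mul_le_mul h7 h8) h9
    _ = 2 ^ L := by
        rw [← pow_add, ← pow_add]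
        congr 1
        omega

/-- injection of all boxes -/
theorem sigma_le (hRed : StmtRed) (hs : s ≤ K) (hA : 1 ≤ A) (hL : (K * K + 7 * K + 7) * A ≤ L)
    {X r : ℕ} (hX : 2 ^ L ≤ X) (ρ : ℕ → ℕ) (hρ : ∀ m, Ok m → ρ m ∈ R60 ∧ (m * ρ m) % 60 = r)
    (D : Finset ℕ) (hD : ∀ d, 1 ≤ d → d ≤ X → Squarefree d → d % 60 = r → Redei d → d ∈ D) :
    ∑ x ∈ ms A ×ˢ Wd A s, (FB x.1 s x.2 (bb L s x.1 x.2) (ρ x.1)).card ≤ D.card := by
  classical
  rw [← Finset.card_sigma]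
  refine Finset.card_le_card_of_injOn
    (fun z : (_ : ℕ × (Fin s → ℕ)) × ((Fin s → ℕ) × ℕ) => z.1.1 * (∏ i, z.2.1 i) * z.2.2) ?_ ?_
  · rintro ⟨⟨m, e⟩, y⟩ hz
    obtain ⟨hx, hy⟩ := Finset.mem_sigma.1 (Finset.mem_coe.1 hz)
    obtain ⟨hm, he⟩ := Finset.mem_product.1 hx
    simp only at hm he hy
    have hsh := sh_of hs hA hL he hm hy
    have hdle := d_le hs hA hL he hm hy
    obtain ⟨h1, hgood⟩ := Finset.mem_filter.1 hy
    obtain ⟨h3, h4⟩ := Finset.mem_product.1 h1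
    have h5 := Fintype.mem_piFinset.1 h3
    have hp1 : ∀ i, y.1 i % 60 = 1 := fun i => (Finset.mem_filter.1 (h5 i)).2.2
    have hq1 : y.2 % 60 = ρ m := (Finset.mem_filter.1 h4).2.2
    refine Finset.mem_coe.2 (hD _ ?_ (hdle.trans hX) hsh.sqf ?_ ?_)
    · exact Nat.pos_of_ne_zero hsh.sqf.ne_zero
    · have e1 : (∏ i, y.1 i) ≡ 1 [MOD 60] := by
        have : ∀ u : Finset (Fin s), (∏ i ∈ u, y.1 i) ≡ 1 [MOD 60] := by
          intro u
          induction u using Finset.induction_on with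
          | empty => simp; rfl
          | insert i u hi ih =>
            rw [Finset.prod_insert hi]
            exact Nat.ModEq.mul (show y.1 i ≡ 1 [MOD 60] from (hp1 i).trans rfl) ih
        exact this _
      have e2 : y.2 ≡ ρ m [MOD 60] := by
        have hlt : ρ m < 60 := Finset.mem_range.1 (Finset.mem_filter.1 (hρ m hsh.ok).1).1
        show y.2 % 60 = ρ m % 60
        rw [Nat.mod_eq_of_lt hlt]
        exact hq1
      have e3 : m * (∏ i, y.1 i) * y.2 ≡ m * 1 * ρ m [MOD 60] :=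
        Nat.ModEq.mul (Nat.ModEq.mul (Nat.ModEq.refl m) e1) e2
      rw [mul_one] at e3
      exact Eq.trans (show (m * (∏ i, y.1 i) * y.2) % 60 = (m * ρ m) % 60 from e3)
        (hρ m hsh.ok).2
    · refine hRed m hsh.ok.1 hsh.ok.2 s y.1 y.2 (fun i => ⟨hsh.pp i, ?_, ?_⟩) hsh.injective
        hsh.qp ?_ ?_ ?_ hgood
      · have := hp1 i
        omega
      · intro hh
        have := Nat.le_of_dvd hsh.ok.pos hh
        have := hsh.m_lt_p hsh i
        omega
      · have h6 : 2 ^ 4 ≤ 2 ^ ((4 + s) * A) :=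
          Nat.pow_le_pow_right (by norm_num) (by nlinarith)
        have := hsh.ql
        omega
      · intro hh
        have := Nat.le_of_dvd hsh.ok.pos hh
        have := hsh.m_lt_q hsh
        omega
      · intro i
        have := hsh.p_lt_q hsh i
        omega
  · rintro ⟨⟨m, e⟩, ⟨p, q⟩⟩ hz ⟨⟨m', e'⟩, ⟨p', q'⟩⟩ hz' heq
    obtain ⟨hx, hy⟩ := Finset.mem_sigma.1 (Finset.mem_coe.1 hz)
    obtain ⟨hm, he⟩ := Finset.mem_product.1 hx
    obtain ⟨hx', hy'⟩ := Finset.mem_sigma.1 (Finset.mem_coe.1 hz')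
    obtain ⟨hm', he'⟩ := Finset.mem_product.1 hx'
    simp only at hm he hy hm' he' hy' heq
    have hsh := sh_of hs hA hL he hm hy
    have hsh' := sh_of hs hA hL he' hm' hy'
    obtain ⟨h1, h2, h3⟩ := hsh.inj hsh' heq
    simp only at h2 h3
    subst h1 h2 h3
    have h5 := Fintype.mem_piFinset.1 (Finset.mem_product.1 (Finset.mem_filter.1 hy).1).1
    have h5' := Fintype.mem_piFinset.1 (Finset.mem_product.1 (Finset.mem_filter.1 hy').1).1
    have h6 : e = e' := by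
      funext i
      have a1 := Finset.mem_Ioc.1 (Finset.mem_filter.1 (h5 i)).1
      have a2 := Finset.mem_Ioc.1 (Finset.mem_filter.1 (h5' i)).1
      simp only at a1 a2
      rcases lt_trichotomy (e i) (e' i) with h | h | h
      · have : 2 ^ (e i + 1) ≤ 2 ^ e' i := Nat.pow_le_pow_right (by norm_num) h
        rw [pow_succ] at this
        omega
      · exact h
      · have : 2 ^ (e' i + 1) ≤ 2 ^ e i := Nat.pow_le_pow_right (by norm_num) h
        rw [pow_succ] at this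
        omega
    subst h6
    rfl

/-- The count for one `s`. -/
theorem core (hRed : StmtRed) (hGood : StmtGood) (hEq : StmtEq) (hs : s ≤ K) (hA : 1 ≤ A)
    (hL : (K * K + 7 * K + 7) * A ≤ L) {X r : ℕ} (hX : 2 ^ L ≤ X) (hr : r < 60)
    (hrc : r.Coprime 60) {ε : ℝ} {N₀ N₁ : ℕ} (hCS : ∀ N : ℕ, N₀ ≤ N → ∀ r : ℕ, r < 60 →
    r.Coprime 60 → ∑ c ∈ (Icc 2 N).filter (fun c => c ^ 4 ≤ N ∧ Squarefree c ∧ c.Coprime 30),
      |Theta N r c| / c ≤ ε * N) (hN₀ : N₀ ≤ 2 ^ (4 * A))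
    (hMain : ∀ N : ℕ, N₁ ≤ N → ∀ r : ℕ, r < 60 → r.Coprime 60 → (N : ℝ) / 20 ≤ Theta N r 1)
    (hN₁ : N₁ ≤ 2 ^ (4 * A))
    (D : Finset ℕ) (hD : ∀ d, 1 ≤ d → d ≤ X → Squarefree d → d % 60 = r → Redei d → d ∈ D) :
    (2 : ℝ) ^ L / (4 ^ s * 2 ^ (s + 2) * (40 * L) ^ (s + 1)) * ((A : ℝ) ^ s *
      (∑ m ∈ ms A, prp m s * (1 / m)) - A ^ s * ((s + 1) * (A * (7200 * ε)))) ≤ D.card := by
  classical
  have hex : ∀ m : ℕ, ∃ ρ : ℕ, Ok m → ρ ∈ R60 ∧ (m * ρ) % 60 = r := by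
    intro m
    by_cases h : Ok m
    · obtain ⟨ρ, h1, h2⟩ := exists_rho hr hrc h.cop60
      exact ⟨ρ, fun _ => ⟨h1, h2⟩⟩
    · exact ⟨0, fun h' => absurd h' h⟩
  choose ρ hρ using hex
  have hsig := sigma_le hRed hs hA hL hX ρ hρ D hD
  set κ : ℝ := (2 : ℝ) ^ L / (4 ^ s * 2 ^ (s + 2) * (40 * L) ^ (s + 1)) with hκ
  have hκ0 : 0 ≤ κ := by positivity
  -- bad pairs
  let Bx : ℕ × (Fin s → ℕ) → Prop := fun x =>
    (∃ i, Bad (x.2 i) x.1) ∨ Bad (bb L s x.1 x.2) x.1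
  have hbox : ∀ x ∈ ms A ×ˢ Wd A s, κ * (prp x.1 s * (1 / x.1)) -
      κ * (if Bx x then 1 / (x.1 : ℝ) else 0) ≤
      ((FB x.1 s x.2 (bb L s x.1 x.2) (ρ x.1)).card : ℝ) := by
    rintro ⟨m, e⟩ hx
    obtain ⟨hm, he⟩ := Finset.mem_product.1 hx
    simp only at hm he ⊢
    obtain ⟨hok, hlt⟩ := mem_ms hm
    have hm0 : (0 : ℝ) < m := by exact_mod_cast hok.pos
    by_cases hB : Bx (m, e)
    · rw [if_pos hB]
      have h1 : prp m s * (1 / (m : ℝ)) ≤ 1 * (1 / m) :=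
        mul_le_mul_of_nonneg_right (prp_le_one m s) (by positivity)
      have h2 : κ * (prp m s * (1 / (m : ℝ))) ≤ κ * (1 / m) := by
        rw [one_mul] at h1
        exact mul_le_mul_of_nonneg_left h1 hκ0
      have h3 : (0 : ℝ) ≤ ((FB m s e (bb L s m e) (ρ m)).card : ℝ) := by positivity
      linarith
    · rw [if_neg hB, mul_zero, sub_zero]
      have hB' : (∀ i, ¬ Bad (e i) m) ∧ ¬ Bad (bb L s m e) m := by
        constructor
        · intro i hi
          exact hB (Or.inl ⟨i, hi⟩)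
        · intro hi
          exact hB (Or.inr hi)
      obtain ⟨hsum, hbig⟩ := bb_sum hs hA hL he hm
      have h4A : 4 * A ≤ bb L s m e := le_trans (Nat.mul_le_mul_right _ (by omega)) hbig
      have he4 : ∀ i, 4 * A ≤ e i := by
        intro i
        have h10 := Finset.mem_Ico.1 (Fintype.mem_piFinset.1 he i)
        exact le_trans (Nat.mul_le_mul_right _ (by omega)) h10.1
      have hpow : ∀ n : ℕ, 4 * A ≤ n → m ≤ 2 ^ n := fun n hn =>
        hlt.le.trans (Nat.pow_le_pow_right (by norm_num) (by omega))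
      have hmain : ∀ n : ℕ, 4 * A ≤ n → ∀ ρ ∈ R60, (2 : ℝ) ^ n / 20 ≤ Theta (2 ^ n) ρ 1 := by
        intro n hn ρ hρ
        obtain ⟨h1, h2⟩ := Finset.mem_filter.1 hρ
        have h3 := hMain (2 ^ n) (hN₁.trans (Nat.pow_le_pow_right (by norm_num) hn)) ρ
          (Finset.mem_range.1 h1) h2
        push_cast at h3
        exact h3
      have hei : ∀ i, e i ≤ ∑ i, e i := fun i =>
        Finset.single_le_sum (f := e) (fun _ _ => Nat.zero_le _) (Finset.mem_univ i)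
      have h := box_ge hGood hEq (m := m) (s := s) (e := e) (b := bb L s m e) (ρ := ρ m) (L := L)
        hok (fun i => hpow _ (he4 i)) (hpow _ h4A) hB'.1 hB'.2 (hρ m hok).1
        (fun i => hmain _ (he4 i) 1 (by decide)) (hmain _ h4A _ (hρ m hok).1)
        (fun i => by have := hei i; omega) (by omega) hsum
      calc κ * (prp m s * (1 / (m : ℝ))) = prp m s * (1 / m) * κ := by ring
        _ ≤ _ := h
  -- the bad part
  have hbad : ∑ x ∈ ms A ×ˢ Wd A s, (if Bx x then 1 / (x.1 : ℝ) else 0) ≤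
      (A : ℝ) ^ s * ((s + 1) * (A * (7200 * ε))) := by
    rw [Finset.sum_product_right]
    have hone : ∀ e ∈ Wd A s, ∑ m ∈ ms A, (if Bx (m, e) then 1 / (m : ℝ) else 0) ≤
        (s + 1) * (A * (7200 * ε)) := by
      intro e he
      have he4 : ∀ i, 4 * A ≤ e i := by
        intro i
        have h10 := Finset.mem_Ico.1 (Fintype.mem_piFinset.1 he i)
        exact le_trans (Nat.mul_le_mul_right _ (by omega)) h10.1
      have t1 : ∀ i, ∑ m ∈ ms A, (if Bad (e i) m then 1 / (m : ℝ) else 0) ≤ A * (7200 * ε) := by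
        intro i
        exact bad_total hCS (fun _ => e i) (fun a _ => hN₀.trans
          (Nat.pow_le_pow_right (by norm_num) (he4 i))) (fun a _ => he4 i) (ms A)
          (fun m hm => mem_ms hm) _ fun m _ h => h
      have hν : ∀ a < A, 4 * A ≤ L - (s + 2) - a - ∑ i, e i := by
        intro a ha
        have h1 := budget hs hA hL he ha
        have h2 : 4 * A ≤ (4 + s) * A := Nat.mul_le_mul_right _ (by omega)
        omega
      have t2 : ∑ m ∈ ms A, (if Bad (bb L s m e) m then 1 / (m : ℝ) else 0) ≤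
          A * (7200 * ε) := by
        exact bad_total hCS (fun a => L - (s + 2) - a - ∑ i, e i) (fun a ha => hN₀.trans
          (Nat.pow_le_pow_right (by norm_num) (hν a ha))) hν (ms A)
          (fun m hm => mem_ms hm) _ fun m _ h => h
      have t3 : ∀ m ∈ ms A, (if Bx (m, e) then 1 / (m : ℝ) else 0) ≤
          (∑ i, if Bad (e i) m then 1 / (m : ℝ) else 0) +
            (if Bad (bb L s m e) m then 1 / (m : ℝ) else 0) := by
        intro m _
        have n1 : ∀ i ∈ (univ : Finset (Fin s)), (0 : ℝ) ≤ if Bad (e i) m then 1 / (m : ℝ) else 0 :=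
          fun i _ => by split_ifs <;> positivity
        have n2 : (0 : ℝ) ≤ (if Bad (bb L s m e) m then 1 / (m : ℝ) else 0) := by
          split_ifs <;> positivity
        by_cases hB : Bx (m, e)
        · rw [if_pos hB]
          rcases hB with ⟨i, hi⟩ | hb
          · have h1 := Finset.single_le_sum n1 (Finset.mem_univ i)
            simp only at hi
            rw [if_pos hi] at h1
            linarith
          · have h1 := Finset.sum_nonneg n1
            simp only at hb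
            rw [if_pos hb]
            linarith
        · rw [if_neg hB]
          have h1 := Finset.sum_nonneg n1
          linarith
      calc ∑ m ∈ ms A, (if Bx (m, e) then 1 / (m : ℝ) else 0)
          ≤ ∑ m ∈ ms A, ((∑ i, if Bad (e i) m then 1 / (m : ℝ) else 0) +
            (if Bad (bb L s m e) m then 1 / (m : ℝ) else 0)) := Finset.sum_le_sum t3
        _ = (∑ i, ∑ m ∈ ms A, if Bad (e i) m then 1 / (m : ℝ) else 0) +
            ∑ m ∈ ms A, (if Bad (bb L s m e) m then 1 / (m : ℝ) else 0) := by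
            rw [Finset.sum_add_distrib, Finset.sum_comm]
        _ ≤ (∑ _i : Fin s, A * (7200 * ε)) + A * (7200 * ε) :=
            add_le_add (Finset.sum_le_sum fun i _ => t1 i) t2
        _ = (s + 1) * (A * (7200 * ε)) := by
            rw [Finset.sum_const, Finset.card_univ, Fintype.card_fin, nsmul_eq_mul]
            ring
    calc _ ≤ ∑ e ∈ Wd A s, (s + 1) * (A * (7200 * ε)) := Finset.sum_le_sum hone
      _ = _ := by
        rw [Finset.sum_const, card_Wd, nsmul_eq_mul]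
        push_cast
        rfl
  have hprod : ∑ x ∈ ms A ×ˢ Wd A s, prp x.1 s * (1 / (x.1 : ℝ)) =
      (A : ℝ) ^ s * ∑ m ∈ ms A, prp m s * (1 / m) := by
    rw [Finset.sum_product_right]
    simp only
    rw [Finset.sum_const, card_Wd, nsmul_eq_mul]
    push_cast
    rfl
  calc κ * ((A : ℝ) ^ s * (∑ m ∈ ms A, prp m s * (1 / m)) - A ^ s * ((s + 1) * (A * (7200 * ε))))
      ≤ κ * (∑ x ∈ ms A ×ˢ Wd A s, prp x.1 s * (1 / (x.1 : ℝ)) -
          ∑ x ∈ ms A ×ˢ Wd A s, (if Bx x then 1 / (x.1 : ℝ) else 0)) := by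
        rw [hprod]
        exact mul_le_mul_of_nonneg_left (by linarith) hκ0
    _ = ∑ x ∈ ms A ×ˢ Wd A s, (κ * (prp x.1 s * (1 / x.1)) -
          κ * (if Bx x then 1 / (x.1 : ℝ) else 0)) := by
        rw [Finset.sum_sub_distrib, ← Finset.mul_sum, ← Finset.mul_sum, mul_sub]
    _ ≤ ∑ x ∈ ms A ×ˢ Wd A s, ((FB x.1 s x.2 (bb L s x.1 x.2) (ρ x.1)).card : ℝ) :=
        Finset.sum_le_sum hbox
    _ ≤ D.card := by exact_mod_cast hsig

end

end Vale.Agent.P017.R2.H420
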