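import Vale.Agent.P017.R2.H420.Core
import Vale.Agent.P017.R2.H420.Sqf

/-!
# P017, module M7b: the final count from the other modules
-/

open Finset

namespace Vale.Agent.P017.R2.H420

open Vale.Agent.P017.R2.H985
open Vale.Agent.P017.H185 (Redei)

/-- constants: a positive proportion of the patterns has small corank -/
theorem exists_s (hId : StmtId) {c₁ C : ℝ} (hc₁ : 0 < c₁)
    (hS : ∀ Y : ℕ, 2 ≤ Y → c₁ * Real.log Y ≤
      ∑ m ∈ (Icc 1 Y).filter (fun m => Squarefree m ∧ m.Coprime 30), 1 / (m : ℝ))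
    (hF : ∀ Y : ℕ, 2 ≤ Y → ∑ m ∈ (Icc 1 Y).filter (fun m => Squarefree m ∧ m.Coprime 30),
      (∑ b ∈ m.divisors, ∑ c ∈ (m / b).divisors, (jacobiSym b c : ℝ)) /
      (2 ^ m.primeFactors.card * m) ≤ C * Real.log Y) {K : ℕ} (hK : C / c₁ < 2 ^ K) {A : ℕ}
    (hA : 2 ≤ A) : ∃ s ∈ range (K + 1), c₁ / (16 * (K + 1)) * (2 * A) ≤
      ∑ m ∈ ms A, prp m s * (1 / m) := by
  have hY : 2 ≤ 2 ^ A - 1 := by
    have : 2 ^ 2 ≤ 2 ^ A := Nat.pow_le_pow_right (by norm_num) hA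
    omega
  have h1 := hS _ hY
  have h2 := hF _ hY
  have hlog : (A : ℝ) / 4 ≤ Real.log ((2 ^ A - 1 : ℕ) : ℝ) := by
    have h3 : 2 ^ (A - 1) ≤ 2 ^ A - 1 := by
      obtain ⟨B, rfl⟩ : ∃ B, A = B + 1 := ⟨A - 1, by omega⟩
      have : 0 < 2 ^ B := by positivity
      rw [Nat.add_sub_cancel, pow_succ]
      omega
    have h4 : ((2 : ℝ) ^ (A - 1)) ≤ ((2 ^ A - 1 : ℕ) : ℝ) := by exact_mod_cast h3
    have h5 : Real.log ((2 : ℝ) ^ (A - 1)) ≤ Real.log ((2 ^ A - 1 : ℕ) : ℝ) :=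
      Real.log_le_log (by positivity) h4
    rw [Real.log_pow] at h5
    have h6 := Real.log_two_gt_d9
    have h7 : ((A - 1 : ℕ) : ℝ) = A - 1 := by
      rw [Nat.cast_sub (by omega)]
      norm_num
    rw [h7] at h5
    have h8 : (2 : ℝ) ≤ A := by exact_mod_cast hA
    nlinarith
  set Lg := Real.log ((2 ^ A - 1 : ℕ) : ℝ) with hLg
  have hK' : C / 2 ^ (K + 1) ≤ c₁ / 2 := by
    rw [div_lt_iff₀ hc₁] at hK
    rw [div_le_div_iff₀ (by positivity) (by norm_num), pow_succ]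
    nlinarith
  have h3 : ∑ m ∈ ms A, (1 / (m : ℝ)) * (1 - (∑ b ∈ m.divisors, ∑ c ∈ (m / b).divisors,
      (jacobiSym b c : ℝ)) / 2 ^ m.primeFactors.card / 2 ^ (K + 1)) ≤
      ∑ s ∈ range (K + 1), ∑ m ∈ ms A, prp m s * (1 / m) := by
    rw [Finset.sum_comm]
    refine Finset.sum_le_sum fun m hm => ?_
    rw [← Finset.sum_mul, mul_comm]
    exact mul_le_mul_of_nonneg_right (markov hId (mem_ms hm).1 K) (by positivity)
  have h4 : ∑ m ∈ ms A, (1 / (m : ℝ)) * (1 - (∑ b ∈ m.divisors, ∑ c ∈ (m / b).divisors,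
      (jacobiSym b c : ℝ)) / 2 ^ m.primeFactors.card / 2 ^ (K + 1)) =
      ∑ m ∈ ms A, 1 / (m : ℝ) - (∑ m ∈ ms A, (∑ b ∈ m.divisors, ∑ c ∈ (m / b).divisors,
        (jacobiSym b c : ℝ)) / (2 ^ m.primeFactors.card * m)) / 2 ^ (K + 1) := by
    rw [Finset.sum_div, ← Finset.sum_sub_distrib]
    refine Finset.sum_congr rfl fun m hm => ?_
    have hm0 : (m : ℝ) ≠ 0 := by exact_mod_cast (mem_ms hm).1.pos.ne'
    field_simp
  have h5 : c₁ / (16 * (K + 1)) * (2 * A) * (K + 1 : ℕ) ≤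
      ∑ s ∈ range (K + 1), ∑ m ∈ ms A, prp m s * (1 / m) := by
    refine le_trans ?_ h3
    rw [h4]
    have h6 : (∑ m ∈ ms A, (∑ b ∈ m.divisors, ∑ c ∈ (m / b).divisors,
        (jacobiSym b c : ℝ)) / (2 ^ m.primeFactors.card * m)) / 2 ^ (K + 1) ≤
        c₁ / 2 * Lg := by
      have hL0 : 0 ≤ Lg := le_trans (by positivity) hlog
      calc _ ≤ C * Lg / 2 ^ (K + 1) := by
            apply div_le_div_of_nonneg_right h2 (by positivity)
        _ = C / 2 ^ (K + 1) * Lg := by ring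
        _ ≤ c₁ / 2 * Lg := mul_le_mul_of_nonneg_right hK' hL0
    have h7 : c₁ * Lg ≤ ∑ m ∈ ms A, 1 / (m : ℝ) := h1
    have h8 : c₁ / (16 * (K + 1)) * (2 * A) * ((K + 1 : ℕ) : ℝ) = c₁ * A / 8 := by
      push_cast
      field_simp
      norm_num
    rw [h8]
    nlinarith
  by_contra hcon
  push Not at hcon
  have h6 : ∑ s ∈ range (K + 1), ∑ m ∈ ms A, prp m s * (1 / m) <
      ∑ _s ∈ range (K + 1), c₁ / (16 * (K + 1)) * (2 * A) :=
    Finset.sum_lt_sum_of_nonempty ⟨0, Finset.mem_range.2 (by omega)⟩ hcon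
  rw [Finset.sum_const, Finset.card_range, nsmul_eq_mul] at h6
  linarith

theorem stmtFinal (hRed : StmtRed) (hGood : StmtGood) (hId : StmtId) (hEq : StmtEq)
    (hCS : StmtCharSum) (hMain : StmtMain) (hFirst : StmtFirst) (hSqf : StmtSqf) :
    StmtFinal := by
  intro r hr hrc
  obtain ⟨c₁, hc₁, hS⟩ := hSqf
  obtain ⟨C, hC, hF⟩ := hFirst
  obtain ⟨K, hK⟩ := pow_unbounded_of_one_lt (C / c₁) (one_lt_two (α := ℝ))
  set R : ℕ := K * K + 7 * K + 7 with hR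
  have hR0 : 0 < R := by positivity
  set τ : ℝ := c₁ / (16 * (K + 1)) with hτ
  have hτ0 : 0 < τ := by positivity
  have hε0 : (0 : ℝ) < τ / (7200 * (K + 1)) := by positivity
  obtain ⟨N₀, hN₀⟩ := hCS _ hε0
  obtain ⟨N₁, hN₁⟩ := hMain
  set κ₀ : ℝ := 1 / (4 ^ K * 2 ^ (K + 2) * (80 * R) ^ (K + 1)) with hκ₀
  have hκ₀0 : 0 < κ₀ := by positivity
  refine ⟨κ₀ * τ / 2, by positivity, 2 ^ (R * (N₀ + N₁ + 2)), fun X hX => ?_⟩
  have hX0 : X ≠ 0 := by
    have : 0 < 2 ^ (R * (N₀ + N₁ + 2)) := by positivity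
    omega
  set L := Nat.log 2 X with hL
  have hL1 : R * (N₀ + N₁ + 2) ≤ L := Nat.le_log_of_pow_le (by norm_num) hX
  set A := L / R with hA
  have hA1 : N₀ + N₁ + 2 ≤ A := (Nat.le_div_iff_mul_le hR0).2 (by rw [mul_comm]; exact hL1)
  have hAL : R * A ≤ L := Nat.mul_div_le L R
  have hAL' : L < R * (A + 1) := Nat.lt_mul_div_succ L hR0
  have hXL : 2 ^ L ≤ X := Nat.pow_log_le_self 2 hX0
  have hXL' : X < 2 ^ (L + 1) := Nat.lt_pow_succ_log_self (by norm_num) X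
  have h4A : 4 * A < 2 ^ (4 * A) := Nat.lt_two_pow_self
  obtain ⟨s, hsr, hs⟩ := exists_s hId hc₁ hS hF hK (A := A) (by omega)
  have hsK : s ≤ K := by
    have := Finset.mem_range.1 hsr
    omega
  have hcore := core hRed hGood hEq (K := K) (s := s) (A := A) (L := L) hsK (by omega) hAL hXL
    hr hrc hN₀ (by omega) hN₁ (by omega)
  refine le_trans ?_ (hcore _ ?_)
  swap
  · intro d h1 h2 h3 h4 h5
    simp only [Finset.mem_filter, Finset.mem_Icc]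
    exact ⟨⟨h1, h2⟩, h3, h4, h5⟩
  have hA0 : (0 : ℝ) < A := by exact_mod_cast (by omega : 0 < A)
  have hL0 : (0 : ℝ) < L := by
    have : 0 < L := by
      have : R * (N₀ + N₁ + 2) > 0 := by positivity
      omega
    exact_mod_cast this
  have hR0' : (0 : ℝ) < R := by exact_mod_cast hR0
  have e1 : (s + 1 : ℝ) * (A * (7200 * (τ / (7200 * (K + 1))))) ≤ τ * A := by
    have : (s + 1 : ℝ) ≤ K + 1 := by
      have : (s : ℝ) ≤ K := by exact_mod_cast hsK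
      linarith
    calc (s + 1 : ℝ) * (A * (7200 * (τ / (7200 * (K + 1))))) =
          (s + 1) / (K + 1) * (τ * A) := by field_simp
      _ ≤ 1 * (τ * A) := by
          gcongr
          rw [div_le_one (by positivity)]
          exact this
      _ = τ * A := one_mul _
  have e2 : (A : ℝ) ^ s * (τ * A) ≤ (A : ℝ) ^ s * (∑ m ∈ ms A, prp m s * (1 / m)) -
      A ^ s * ((s + 1) * (A * (7200 * (τ / (7200 * (K + 1)))))) := by
    rw [← mul_sub]
    refine mul_le_mul_of_nonneg_left ?_ (by positivity)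
    nlinarith
  have e3 : 1 / (80 * (R : ℝ)) ≤ A / (40 * L) := by
    rw [div_le_div_iff₀ (by positivity) (by positivity)]
    have h5 : (L : ℝ) ≤ R * (A + 1) := by exact_mod_cast hAL'.le
    have h6 : (1 : ℝ) ≤ A := by exact_mod_cast (by omega : 1 ≤ A)
    nlinarith
  have e4 : κ₀ ≤ A ^ (s + 1) / (4 ^ s * 2 ^ (s + 2) * (40 * L) ^ (s + 1)) := by
    have h5 : (1 / (80 * (R : ℝ))) ^ (K + 1) ≤ (A / (40 * L)) ^ (s + 1) := by
      have h80 : (1 / (80 * (R : ℝ))) ≤ 1 := by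
        rw [div_le_one (by positivity)]
        have : (1 : ℝ) ≤ R := by exact_mod_cast hR0
        linarith
      calc (1 / (80 * (R : ℝ))) ^ (K + 1) ≤ (1 / (80 * (R : ℝ))) ^ (s + 1) :=
            pow_le_pow_of_le_one (by positivity) h80 (by omega)
        _ ≤ _ := pow_le_pow_left₀ (by positivity) e3 _
    have h6 : (4 : ℝ) ^ s * 2 ^ (s + 2) ≤ 4 ^ K * 2 ^ (K + 2) := by
      gcongr <;> norm_num
    calc κ₀ = 1 / (4 ^ K * 2 ^ (K + 2)) * (1 / (80 * (R : ℝ))) ^ (K + 1) := by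
          rw [hκ₀, div_pow, one_pow, div_mul_div_comm, one_mul]
      _ ≤ 1 / (4 ^ s * 2 ^ (s + 2)) * (A / (40 * L)) ^ (s + 1) := by gcongr
      _ = _ := by rw [div_pow, div_mul_div_comm, one_mul]
  have e5 : (X : ℝ) ≤ 2 * 2 ^ L := by
    have h : X ≤ 2 * 2 ^ L := by
      rw [pow_succ] at hXL'
      omega
    exact_mod_cast h
  calc κ₀ * τ / 2 * X ≤ κ₀ * τ / 2 * (2 * 2 ^ L) := by gcongr
    _ = κ₀ * (τ * 2 ^ L) := by ring
    _ ≤ A ^ (s + 1) / (4 ^ s * 2 ^ (s + 2) * (40 * L) ^ (s + 1)) * (τ * 2 ^ L) := by gcongr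
    _ = 2 ^ L / (4 ^ s * 2 ^ (s + 2) * (40 * L) ^ (s + 1)) * (A ^ s * (τ * A)) := by
        rw [pow_succ (A : ℝ) s]
        ring
    _ ≤ _ := by gcongr

end Vale.Agent.P017.R2.H420
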